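import Vale.Agent.P281.H716.DenseV
import Vale.Agent.P281.H713.SA.G5

/-! P281, theorem TL, row T1: the preimage of finitely many prime divisors by a fibration is nowhere
dense. -/

open scoped Manifold ContDiff Topology
open Set Filter Vale.Agent.P272.K

noncomputable section

namespace Vale.Agent.P281.H949.TL

open Vale.Agent.P281 Vale.Agent.P281.MF Vale.Agent.P281.ISO

set_option linter.unusedSectionVars false

variable {n p : ℕ} {X Z Y : Type} [TopologicalSpace X] [ChartedSpace (Cm n) X]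
  [IsManifold 𝓘(ℂ, Cm n) ω X] [TopologicalSpace Z] [ChartedSpace (Cm n) Z]
  [IsManifold 𝓘(ℂ, Cm n) ω Z] [TopologicalSpace Y] [ChartedSpace (Cm p) Y]
  [IsManifold 𝓘(ℂ, Cm p) ω Y]

/-- Riemann extension: the closures of the two parts do not meet. -/
theorem sep_at {j : Z → X} (hj : J.IsBigOpen (Cm n) j) {U : Set Z} (hU : IsClopen U) (x : X) :
    x ∉ closure (j '' U) ∨ x ∉ closure (j '' Uᶜ) := by
  classical
  obtain ⟨hj0, hj₁, hj₂, hthin⟩ := hj
  obtain ⟨Den, hDen, hne, hev⟩ := hthin x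
  have hDen' : HolV (Cm n) Den x := hDen
  have ho1 : IsOpen (j '' U) := hj₁.isOpenMap _ hU.isOpen
  have ho2 : IsOpen (j '' Uᶜ) := hj₁.isOpenMap _ hU.isClosed.isOpen_compl
  have hdisj : ∀ y, y ∈ j '' Uᶜ → y ∉ j '' U := by
    rintro y ⟨z, hz, rfl⟩ ⟨z', hz', he⟩
    exact hz (hj₁.injective he ▸ hz')
  set h : X → ℂ := fun y => if y ∈ j '' U then 1 else 0 with hh
  have hcases : ∀ᶠ z in 𝓝 x, Den z ≠ 0 → z ∈ j '' U ∨ z ∈ j '' Uᶜ := by
    filter_upwards [hev] with z hz hz0
    have hr : z ∈ range j := by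
      by_contra hcon
      exact hz0 (hz.1 hcon)
    obtain ⟨w, rfl⟩ := hr
    by_cases hw : w ∈ U
    · exact Or.inl ⟨w, hw, rfl⟩
    · exact Or.inr ⟨w, hw, rfl⟩
  have hhol : ∀ᶠ z in 𝓝 x, Den z ≠ 0 → HolV (Cm n) h z := by
    filter_upwards [hcases] with z hz hz0
    rcases hz hz0 with h1 | h1
    · refine (contMDiffAt_const (c := (1 : ℂ))).congr_of_eventuallyEq ?_
      filter_upwards [ho1.mem_nhds h1] with y hy
      simp only [hh]
      rw [if_pos hy]
    · refine (contMDiffAt_const (c := (0 : ℂ))).congr_of_eventuallyEq ?_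
      filter_upwards [ho2.mem_nhds h1] with y hy
      simp only [hh]
      rw [if_neg (hdisj y hy)]
  obtain ⟨Q, hQ, hQe⟩ := extendM_off hDen' hne hhol (Eventually.of_forall fun z hz =>
    subset_closure ⟨hz, 1, Eventually.of_forall fun w _ => by
      simp only [hh]
      split_ifs <;> simp⟩)
  have hfr := ne_frequently hDen' hne
  have hQc : ContinuousAt Q x := hQ.continuousAt
  -- the value of `Q` at `x`
  have hnear : ∀ᶠ y in 𝓝 x, ‖Q y - Q x‖ < 1 / 2 := by
    have h1 : Tendsto (fun y => ‖Q y - Q x‖) (𝓝 x) (𝓝 ‖Q x - Q x‖) :=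
      ((hQc.tendsto.sub tendsto_const_nhds)).norm
    rw [sub_self, norm_zero] at h1
    exact h1.eventually (gt_mem_nhds (by norm_num))
  -- `h` is constant off `Den = 0` near `x`
  by_cases hx : ‖Q x - 1‖ < 1 / 2
  · right
    intro hcl
    have h1 := mem_closure_iff_frequently.1 hcl
    obtain ⟨y, hy1, hy2, hy3, hy4⟩ := (h1.and_eventually (hfr.and ((hQe.and hnear).eventually_nhds.and
      hcases.eventually_nhds))).exists
    obtain ⟨z, hz1, hz2, hz3, hz4⟩ := (hy2.and_eventually (hy3.and (hy4.and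
      (ho2.mem_nhds hy1)))).exists
    have h2 := hz2.1 hz1
    simp only [hh] at h2
    rw [if_neg (hdisj z hz4)] at h2
    have h3 := hz2.2
    rw [← h2, zero_sub, norm_neg] at h3
    have h4 : ‖(1 : ℂ)‖ ≤ ‖Q x - 1‖ + ‖Q x‖ := by
      have := norm_sub_le (Q x) (Q x - 1)
      rw [sub_sub_cancel] at this
      linarith
    rw [norm_one] at h4
    linarith
  · left
    intro hcl
    have h1 := mem_closure_iff_frequently.1 hcl
    obtain ⟨y, hy1, hy2, hy3, hy4⟩ := (h1.and_eventually (hfr.and ((hQe.and hnear).eventually_nhds.and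
      hcases.eventually_nhds))).exists
    obtain ⟨z, hz1, hz2, hz3, hz4⟩ := (hy2.and_eventually (hy3.and (hy4.and
      (ho1.mem_nhds hy1)))).exists
    have h2 := hz2.1 hz1
    simp only [hh] at h2
    rw [if_pos (show z ∈ j '' U from hz4)] at h2
    have h3 := hz2.2
    rw [← h2] at h3
    rw [norm_sub_rev] at h3
    exact hx h3

/-- `range j` is dense -/
theorem dense_range_big {j : Z → X} (hj : J.IsBigOpen (Cm n) j) : Dense (range j) := by
  intro x
  obtain ⟨h, -, hne, hev⟩ := hj.2.2.2 x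
  rw [mem_closure_iff_frequently]
  intro hcon
  apply hne
  filter_upwards [hcon, hev] with z hz hz'
  exact hz'.1 hz

/-- `Z` is connected. -/
theorem preconnected_big [PreconnectedSpace X] {j : Z → X} (hj : J.IsBigOpen (Cm n) j) :
    PreconnectedSpace Z := by
  refine preconnectedSpace_iff_clopen.2 fun U hU => ?_
  have h1 : closure (j '' U) ∪ closure (j '' Uᶜ) = univ := by
    rw [← closure_union, ← image_union, union_compl_self, image_univ]
    exact (dense_range_big hj).closure_eq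
  have h2 : closure (j '' U) ∩ closure (j '' Uᶜ) = ∅ := by
    rw [eq_empty_iff_forall_notMem]
    rintro x ⟨h3, h4⟩
    rcases sep_at hj hU x with h5 | h5
    · exact h5 h3
    · exact h5 h4
  have h3 : IsClopen (closure (j '' U)) := by
    refine ⟨isClosed_closure, ?_⟩
    have h4 : closure (j '' U) = (closure (j '' Uᶜ))ᶜ := by
      ext x
      constructor
      · intro hx hx'
        exact (eq_empty_iff_forall_notMem.1 h2 x) ⟨hx, hx'⟩
      · intro hx
        have : x ∈ closure (j '' U) ∪ closure (j '' Uᶜ) := by rw [h1]; trivial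
        exact this.resolve_right hx
    rw [h4]
    exact isClosed_closure.isOpen_compl
  rcases isClopen_iff.1 h3 with h4 | h4
  · left
    rw [eq_empty_iff_forall_notMem]
    intro z hz
    exact (eq_empty_iff_forall_notMem.1 h4 (j z)) (subset_closure ⟨z, hz, rfl⟩)
  · right
    by_contra hcon
    obtain ⟨z, hz⟩ := (ne_univ_iff_exists_notMem U).1 hcon
    refine (eq_empty_iff_forall_notMem.1 h2 (j z)) ⟨by rw [h4]; trivial, subset_closure ⟨z, hz, rfl⟩⟩

/-- **The preimage of finitely many prime divisors is nowhere dense**, if `f` is submersive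
somewhere. -/
theorem dense_of_sub [PreconnectedSpace Z] {f : Z → Y}
    (hf : ContMDiff 𝓘(ℂ, Cm n) 𝓘(ℂ, Cm p) ω f)
    (hs : ∃ z, Function.Surjective (mfderiv 𝓘(ℂ, Cm n) 𝓘(ℂ, Cm p) f z))
    {𝒢 : Set (Set Y)} (hfin : 𝒢.Finite) (hpr : ∀ G ∈ 𝒢, IsPrimeDivisor (Cm p) G) :
    Dense {z | f z ∉ ⋃₀ 𝒢} := by
  classical
  have hS : ∀ y : Y, ∃ g : Y → ℂ, HolV (Cm p) g y ∧ ∀ᶠ y' in 𝓝 y, y' ∈ ⋃₀ 𝒢 ↔ g y' = 0 := by
    intro y
    have hch : ∀ G, ∃ g : Y → ℂ, G ∈ hfin.toFinset → IsLocalEq (Cm p) G g y := by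
      intro G
      by_cases hG : G ∈ hfin.toFinset
      · obtain ⟨g, hg⟩ := (hpr G (hfin.mem_toFinset.1 hG)).2.1 y
        exact ⟨g, fun _ => hg⟩
      · exact ⟨0, fun h => absurd h hG⟩
    choose g hg using hch
    refine ⟨fun y => ∏ G ∈ hfin.toFinset, g G y, HolV.prod fun G hG => (hg G hG).holAt, ?_⟩
    have h1 : ∀ᶠ y' in 𝓝 y, ∀ G ∈ hfin.toFinset, IsLocalEq (Cm p) G (g G) y' := by
      rw [Filter.eventually_all_finset]
      exact fun G hG => (hg G hG).eventually
    filter_upwards [h1] with y' hy'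
    rw [Finset.prod_eq_zero_iff, mem_sUnion]
    constructor
    · rintro ⟨G, hG, hyG⟩
      have hG' := hfin.mem_toFinset.2 hG
      exact ⟨G, hG', (hy' G hG').mem_iff.1 hyG⟩
    · rintro ⟨G, hG, hyG⟩
      exact ⟨G, hfin.mem_toFinset.1 hG, (hy' G hG).mem_iff.2 hyG⟩
  refine H716.dense_of_localV (E := Cm n) (V := ℂ) ?_ fun z => ?_
  · obtain ⟨z, hz⟩ := hs
    have h1 : Dense (⋃₀ 𝒢)ᶜ := by
      clear hS
      have h2 : Dense (⋃₀ 𝒢)ᶜ ∧ IsClosed (⋃₀ 𝒢) := by
        induction 𝒢, hfin using Set.Finite.induction_on with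
        | empty => simp
        | @insert D 𝒟' _ _ ih =>
          obtain ⟨h1, h2⟩ := ih fun D hD => hpr D (mem_insert_of_mem _ hD)
          have h3 := hpr D (mem_insert _ _)
          rw [sUnion_insert, compl_union]
          exact ⟨(dense_compl_prime h3).inter_of_isOpen_left h1 h3.1.isOpen_compl, h3.1.union h2⟩
      exact h2.1
    have h2 : ∃ᶠ y in 𝓝 (f z), y ∈ (⋃₀ 𝒢)ᶜ := mem_closure_iff_frequently.1 (h1 (f z))
    have h3 : ∃ᶠ y in map f (𝓝 z), y ∈ (⋃₀ 𝒢)ᶜ := h2.filter_mono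
      (H713.SA.nhds_le_map (hf z) hz)
    obtain ⟨w, hw⟩ := (frequently_map.1 h3).exists
    exact ⟨w, hw⟩
  · obtain ⟨g, hg, hge⟩ := hS (f z)
    refine ⟨fun z => g (f z), HolV.comp hg (hf z), ?_⟩
    filter_upwards [(hf z).continuousAt.eventually hge] with w hw
    exact not_congr hw

end Vale.Agent.P281.H949.TL
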