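import Vale.Agent.P281.H949.TL.Thin
import Vale.Agent.P281.H498.LD.Thin

/-! P281, row T1 of TL: `KeyPart` for all fibrations. -/

open scoped Manifold ContDiff Topology ComplexOrder
open Set Filter Vale.Agent.P281 Vale.Agent.P281.J Vale.Agent.P272.K Vale.Agent.P299
open Vale.Agent.P299.H882 (xi)

set_option linter.all false

noncomputable section

namespace Vale.Agent.P281.H949.TL

open Vale.Agent.P281.H713 Vale.Agent.P281.H713.SA Vale.Agent.P281.H716 Vale.Agent.P281.H713.KD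
open Vale.Agent.P281.H498

section

variable {n p : ℕ} {X Z Y : Type} [TopologicalSpace X] [T2Space X] [ConnectedSpace X]
  [ChartedSpace (Cm n) X] [IsManifold 𝓘(ℂ, Cm n) ω X]
  [TopologicalSpace Z] [ChartedSpace (Cm n) Z] [IsManifold 𝓘(ℂ, Cm n) ω Z]
  [TopologicalSpace Y] [T2Space Y] [ConnectedSpace Y]
  [ChartedSpace (Cm p) Y] [IsManifold 𝓘(ℂ, Cm p) ω Y] {j : Z → X} {f : Z → Y}

theorem isThin_of_sub (hj : J.IsBigOpen (Cm n) j) (hf : ContMDiff 𝓘(ℂ, Cm n) 𝓘(ℂ, Cm p) ω f)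
    (hs : ∃ z, Function.Surjective (mfderiv 𝓘(ℂ, Cm n) 𝓘(ℂ, Cm p) f z))
    {𝒢 : Set (Set Y)} (hfin : 𝒢.Finite) (hpr : ∀ G ∈ 𝒢, J.IsPrime (Cm p) G) : IsThin p f 𝒢 := by
  haveI := preconnected_big (n := n) hj
  exact ⟨hfin, hpr, dense_of_sub hf hs hfin hpr⟩

end

/-- **Row T1**: `KeyPart` for all fibrations (`f` is submersive somewhere). -/
theorem keyT (n p μ : ℕ) (X Z Y : Type)
    [TopologicalSpace X] [T2Space X] [CompactSpace X] [ConnectedSpace X]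
    [ChartedSpace (Cm n) X] [IsManifold 𝓘(ℂ, Cm n) ω X]
    [TopologicalSpace Z] [ChartedSpace (Cm n) Z] [IsManifold 𝓘(ℂ, Cm n) ω Z]
    [TopologicalSpace Y] [T2Space Y] [ConnectedSpace Y]
    [ChartedSpace (Cm p) Y] [IsManifold 𝓘(ℂ, Cm p) ω Y]
    (j : Z → X) (hj : J.IsBigOpen (Cm n) j) (f : Z → Y)
    (hf : ContMDiff 𝓘(ℂ, Cm n) 𝓘(ℂ, Cm p) ω f)
    (hs : ∃ z, Function.Surjective (mfderiv 𝓘(ℂ, Cm n) 𝓘(ℂ, Cm p) f z))
    (𝒢 : Set (Set Y)) (hfin : 𝒢.Finite) (hpr : ∀ G ∈ 𝒢, J.IsPrime (Cm p) G)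
    (D : Set X) (_ : J.IsPrime (Cm n) D)
    (hDS : ∀ z, j z ∈ D → f z ∈ ⋃₀ 𝒢) (B : Set X) (hB : IsClosed B) (hBd : Dense Bᶜ)
    (e : Chart n X) (x : X) (h : At e x) (g : Cm n → ℂ) (hg : AnalyticAt ℂ g (e x))
    (hgD : J.IsLocalEq (Cm n) D (fun y => g (e y)) x) (a : (Fin (μ * p) → Fin n) → Cm n → ℂ)
    (ha : ∀ I, AnalyticAt ℂ (a I) (e x))
    (hc : ∀ᶠ y in 𝓝 x, ∀ z, j z = y → f z ∉ ⋃₀ 𝒢 → y ∉ B → ∃ c : ℂ, ∀ I,
      a I (e y) = c * tT f μ (fun z => e (j z)) I z)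
    (I : Fin (μ * p) → Fin n) (s : Fin μ) (k : Fin n) : ∃ u : Cm n → ℂ, AnalyticAt ℂ u (e x) ∧
      ∀ᶠ z in 𝓝 (e x), cram (fun I => a I z) (fun l => fderiv ℂ g z (Pi.single l 1)) I s k =
        g z * u z :=
  keyThin (isThin_of_sub hj hf hs hfin hpr) hj hf hDS hB hBd h hg hgD ha hc I s k

end Vale.Agent.P281.H949.TL
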